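import Vale.Agent.P133.Work

/-! Part DOM: domination gives Cuntz comparison. -/

namespace Vale.Agent.P133

open Finset

variable {B Q : Type} [CStarAlgebra B] [PartialOrder B] [StarOrderedRing B] [CStarAlgebra Q]
  {n m p k : Type} [Fintype n] [DecidableEq n] [Fintype m] [DecidableEq m] [Fintype p]
  [Fintype k] [DecidableEq k]

theorem dom {w z : B} {δ θ : ℝ} (hw : 0 ≤ w) (hδ : 0 < δ) (hθ : 0 ≤ θ)
    (h : star z * z ≤ θ • (w + δ • (1 : B))) : ∃ d : B, ‖star d * w * d - z * star z‖ ≤ θ * δ := by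
  have sw : IsSelfAdjoint w := hw.isSelfAdjoint
  have hp : ∀ t : ℝ, 0 < √(max t 0 + δ) := fun t =>
    Real.sqrt_pos.2 (add_pos_of_nonneg_of_pos (le_max_right _ _) hδ)
  have c1 : Continuous fun t : ℝ => 1 / √(max t 0 + δ) :=
    continuous_const.div (by fun_prop) fun t => (hp t).ne'
  have hg : IsSelfAdjoint (cfc (fun t : ℝ => 1 / √(max t 0 + δ)) w) := cfc_predicate _ _
  obtain ⟨g, hgd⟩ : ∃ g, g = cfc (fun t : ℝ => 1 / √(max t 0 + δ)) w := ⟨_, rfl⟩
  rw [← hgd] at hg
  have e1 : g * w * g + δ • (g * g) = 1 := by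
    have a : g * w * g + δ • (g * g) = cfc (fun t : ℝ => 1 / √(max t 0 + δ) * t *
        (1 / √(max t 0 + δ)) + δ • (1 / √(max t 0 + δ) * (1 / √(max t 0 + δ)))) w := by
      rw [cfc_add _ _ _ (by fun_prop) (by fun_prop), cfc_smul _ _ _ (by fun_prop),
        cfc_mul _ _ _ (by fun_prop) c1.continuousOn, cfc_mul _ _ _ c1.continuousOn,
        cfc_mul _ _ _ c1.continuousOn c1.continuousOn, cfc_id' ℝ w, ← hgd]
    rw [a, ← cfc_const_one ℝ w]
    refine cfc_congr fun t ht => ?_
    have h3 : 0 ≤ t := spectrum_nonneg_of_nonneg hw ht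
    have h4 := hp t
    rw [max_eq_left h3] at h4 ⊢
    have h6 := Real.mul_self_sqrt (show 0 ≤ t + δ by linarith)
    rw [smul_eq_mul]
    field_simp
    linarith
  have e2 : star (z * g) * (z * g) ≤ θ • (1 : B) := by
    have := star_left_conjugate_le_conjugate h g
    rw [mul_smul_comm, smul_mul_assoc, hg.star_eq, mul_add, add_mul, mul_smul_comm, smul_mul_assoc,
      mul_one, e1] at this
    rw [star_mul, hg.star_eq]
    simpa only [mul_assoc] using this
  have e3 : ‖z * g‖ * ‖z * g‖ ≤ θ := by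
    rw [← CStarRing.norm_star_mul_self]
    refine (CStarAlgebra.norm_le_norm_of_nonneg_of_le (star_mul_self_nonneg _) e2).trans ?_
    rw [norm_smul, Real.norm_of_nonneg hθ]
    refine mul_le_of_le_one_right hθ ?_
    nontriviality B
    exact norm_one.le
  refine ⟨g * star z, ?_⟩
  have e4 : star (g * star z) * w * (g * star z) - z * star z =
      -(δ • (z * g * star (z * g))) := by
    have : g * w * g = 1 - δ • (g * g) := eq_sub_of_add_eq e1
    rw [star_mul, star_star, star_mul, hg.star_eq]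
    calc z * g * w * (g * star z) - z * star z = z * (g * w * g) * star z - z * star z := by
          simp only [mul_assoc]
      _ = _ := by
          rw [this, mul_sub, sub_mul, mul_one, mul_smul_comm, smul_mul_assoc]
          simp only [mul_assoc]
          abel
  rw [e4, norm_neg, norm_smul, Real.norm_of_nonneg hδ.le, CStarRing.norm_self_mul_star, mul_comm]
  exact mul_le_mul_of_nonneg_right e3 hδ.le

namespace DOM

lemma cs {N : ℕ} (y : Fin N → B) :
    star (∑ r, y r) * ∑ r, y r ≤ (N : ℝ) • ∑ r, star (y r) * y r := by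
  have h : (0 : B) ≤ ∑ r, ∑ s, star (y r - y s) * (y r - y s) :=
    sum_nonneg fun _ _ => sum_nonneg fun _ _ => star_mul_self_nonneg _
  have e : ∑ r, ∑ s, star (y r - y s) * (y r - y s) = (2 : ℝ) •
      ((N : ℝ) • ∑ r, star (y r) * y r - star (∑ r, y r) * ∑ r, y r) := by
    simp only [star_sub, sub_mul, mul_sub, sum_sub_distrib, sum_const, card_univ, Fintype.card_fin]
    rw [star_sum, sum_mul_sum, sum_comm (f := fun r s => star (y s) * y r), ← smul_sum,
      Nat.cast_smul_eq_nsmul, two_smul]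
    abel
  rw [e] at h
  have := smul_nonneg (show (0 : ℝ) ≤ 1 / 2 by norm_num) h
  rwa [smul_smul, show (1 / 2 : ℝ) * 2 = 1 by norm_num, one_smul, sub_nonneg] at this

lemma one {g : B} (hg : 0 ≤ g) (b c : B) :
    star (b * g * c) * (b * g * c) ≤ (‖b‖ ^ 2 * ‖g‖) • (star c * g * c) := by
  have h1 : g * (star b * b) * g ≤ (‖b‖ ^ 2) • (g * g) := by
    have := CStarAlgebra.star_left_conjugate_le_norm_smul (a := g) (b := star b * b)
    rwa [hg.isSelfAdjoint.star_eq, CStarRing.norm_star_mul_self, ← sq] at this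
  have h2 : g * g ≤ ‖g‖ • g := by
    have := CStarAlgebra.star_left_conjugate_le_norm_smul (a := CFC.sqrt g) (b := g)
      hg.isSelfAdjoint
    rw [(CFC.sqrt_nonneg g).isSelfAdjoint.star_eq, CFC.sqrt_mul_sqrt_self g] at this
    refine le_of_eq_of_le ?_ this
    have e := CFC.sqrt_mul_sqrt_self g
    generalize CFC.sqrt g = s at e
    rw [← e]
    simp only [mul_assoc]
  have h3 := star_left_conjugate_le_conjugate
    (h1.trans (smul_le_smul_of_nonneg_left h2 (sq_nonneg ‖b‖))) c
  rw [smul_smul, mul_smul_comm, smul_mul_assoc] at h3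
  refine le_of_eq_of_le ?_ h3
  simp only [star_mul, hg.isSelfAdjoint.star_eq, mul_assoc]

end DOM

theorem inid {z g : B} (hg : 0 ≤ g) (h : InId z g) {ε : ℝ} (hε : 0 < ε) :
    ∃ N : ℕ, LeE ε Unit (z * star z) (Fin N) g := by
  have hc : ContinuousAt (fun y : B => y * star y) z := by fun_prop
  obtain ⟨y, hy, hS⟩ := mem_closure_iff_nhds.1 h _
    (hc.eventually (Metric.ball_mem_nhds _ (half_pos hε)))
  obtain ⟨N, b, s, c, hs, rfl⟩ := P101.Q2.mem_sums.1 hS
  have hs' : ∀ r, s r = g := hs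
  simp only [hs'] at hy
  obtain ⟨C, hC⟩ : ∃ C : ℝ, C = ∑ r, ‖b r‖ ^ 2 * ‖g‖ := ⟨_, rfl⟩
  have C0 : 0 ≤ C := hC ▸ sum_nonneg fun _ _ => by positivity
  have hw : (0 : B) ≤ ∑ r, star (c r) * g * c r :=
    sum_nonneg fun r _ => star_left_conjugate_nonneg hg _
  have hδ : 0 < ε / 2 / (N * C + 1) := by positivity
  obtain ⟨d, hd⟩ := dom (z := ∑ r, b r * g * c r) (θ := N * C) hw hδ (by positivity) (by
    refine (DOM.cs _).trans ?_
    rw [mul_smul]
    refine smul_le_smul_of_nonneg_left ?_ (Nat.cast_nonneg N)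
    refine le_trans ?_ (smul_le_smul_of_nonneg_left
      (le_add_of_nonneg_right (smul_nonneg hδ.le zero_le_one)) C0)
    rw [smul_sum]
    refine sum_le_sum fun r _ => (DOM.one hg _ _).trans
      (smul_le_smul_of_nonneg_right ?_ (star_left_conjugate_nonneg hg _))
    rw [hC]
    exact single_le_sum (f := fun r => ‖b r‖ ^ 2 * ‖g‖) (fun _ _ => by positivity) (mem_univ r))
  refine ⟨N, fun r _ => c r * d, fun _ _ => ?_⟩
  have e : ∑ r, star (c r * d) * g * (c r * d) = star d * (∑ r, star (c r) * g * c r) * d := by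
    rw [mul_sum, sum_mul]
    exact sum_congr rfl fun r _ => by simp only [star_mul, mul_assoc]
  have h2 : N * C * (ε / 2 / (N * C + 1)) ≤ ε / 2 := by
    rw [mul_div_assoc', div_le_iff₀ (by positivity)]
    nlinarith
  have hy' : ‖(∑ r, b r * g * c r) * star (∑ r, b r * g * c r) - z * star z‖ < ε / 2 :=
    mem_ball_iff_norm.1 hy
  rw [if_pos rfl, e]
  linarith [norm_sub_le_norm_sub_add_norm_sub (star d * (∑ r, star (c r) * g * c r) * d)
    ((∑ r, b r * g * c r) * star (∑ r, b r * g * c r)) (z * star z)]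

end Vale.Agent.P133
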