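import Vale.Agent.P133.PartLE
import Vale.Agent.P133.PartDOM

/-! Part A of P133: purely infinite implies strongly purely infinite. -/

namespace Vale.Agent.P133

open Finset

variable {B Q : Type} [CStarAlgebra B] [PartialOrder B] [StarOrderedRing B] [CStarAlgebra Q]
  {n m p k : Type} [Fintype n] [DecidableEq n] [Fintype m] [DecidableEq m] [Fintype p]
  [Fintype k] [DecidableEq k]

namespace PA

lemma row {b : B} (b0 : 0 ≤ b) {v : n → B} {γ : ℝ} (hγ1 : γ ≤ 1)
    (hγ : γ * (Fintype.card n) ^ 2 * (‖b‖ + 1) ≤ 1)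
    (hv : ∀ i j, ‖star (v i) * v j - if i = j then b else 0‖ < γ) :
    ‖∑ i, v i * star (v i)‖ ≤ ‖b‖ + 1 := by
  set R := ∑ i, v i * star (v i) with hR
  have R0 : 0 ≤ R := sum_nonneg fun i _ => mul_star_self_nonneg _
  have n1 : ∀ i, ‖v i‖ * ‖v i‖ ≤ ‖b‖ + 1 := fun i => by
    have := hv i i
    rw [if_pos rfl] at this
    rw [← CStarRing.norm_star_mul_self]
    linarith [norm_sub_norm_le (star (v i) * v i) b]
  have n2 : ∀ i j, ‖v i‖ * ‖v j‖ ≤ ‖b‖ + 1 := fun i j => by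
    nlinarith [n1 i, n1 j, sq_nonneg (‖v i‖ - ‖v j‖)]
  have e : R * R = ∑ i, v i * b * star (v i) +
      ∑ i, ∑ j, v i * (star (v i) * v j - if i = j then b else 0) * star (v j) := by
    rw [hR, sum_mul_sum, ← sum_add_distrib]
    refine sum_congr rfl fun i _ => ?_
    simp only [mul_sub, sub_mul, sum_sub_distrib, mul_ite, ite_mul, mul_zero, zero_mul,
      sum_ite_eq, mem_univ, if_true, mul_assoc]
    abel
  have b1 : ‖∑ i, v i * b * star (v i)‖ ≤ ‖b‖ * ‖R‖ := by
    have u : ∑ i, v i * b * star (v i) ≤ ‖b‖ • R := by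
      rw [hR, smul_sum]
      exact sum_le_sum fun i _ => CStarAlgebra.star_right_conjugate_le_norm_smul b0.isSelfAdjoint
    have hn : ‖‖b‖ • R‖ = ‖b‖ * ‖R‖ := by rw [norm_smul, norm_norm]
    rw [← hn]
    exact CStarAlgebra.norm_le_norm_of_nonneg_of_le
      (sum_nonneg fun i _ => star_right_conjugate_nonneg b0 _) u
  have b2 : ‖∑ i, ∑ j, v i * (star (v i) * v j - if i = j then b else 0) * star (v j)‖ ≤ 1 := by
    refine (norm_sum_le_of_le _ fun i _ => norm_sum_le_of_le _ fun j _ =>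
      (?_ : _ ≤ γ * (‖b‖ + 1))).trans ?_
    · refine (norm_mul₃_le).trans ?_
      rw [norm_star]
      have := (hv i j).le
      have h0 := norm_nonneg (star (v i) * v j - if i = j then b else 0)
      calc _ = ‖star (v i) * v j - if i = j then b else 0‖ * (‖v i‖ * ‖v j‖) := by ring
        _ ≤ γ * (‖b‖ + 1) := by gcongr; exacts [h0.trans this, n2 i j]
    · simp only [sum_const, card_univ, nsmul_eq_mul]
      nlinarith
  have b3 : ‖R‖ * ‖R‖ ≤ ‖b‖ * ‖R‖ + 1 := by
    rw [← CStarRing.norm_star_mul_self, R0.isSelfAdjoint.star_eq, e]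
    exact (norm_add_le _ _).trans (add_le_add b1 b2)
  by_contra hc
  push Not at hc
  nlinarith [norm_nonneg b]

lemma cube {K : B} (sK : IsSelfAdjoint K) : K⁺ * K * K⁺ = K⁺ * K⁺ * K⁺ := by
  conv_lhs => enter [1, 2]; rw [← CFC.posPart_sub_negPart K sK]
  rw [mul_sub, CFC.posPart_mul_negPart, sub_zero]

lemma pos_mem {P : TwoSidedIdeal B} (hP : IsClosed (P : Set B)) {K : B} (sK : IsSelfAdjoint K)
    (h : K⁺ * K * K⁺ ∈ P) : K⁺ ∈ P := by
  have s : star K⁺ = K⁺ := (CFC.posPart_nonneg K).isSelfAdjoint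
  refine mem_of_star_mul hP (mem_of_star_mul hP ?_)
  rw [cube sK] at h
  simpa only [star_mul, s, star_star, mul_assoc] using P.mul_mem_left K⁺ _ h

lemma mem_of_le {P : TwoSidedIdeal B} (hP : IsClosed (P : Set B)) {a c : B} (ha : 0 ≤ a)
    (hac : a ≤ c) (hc : c ∈ P) : a ∈ P := by
  obtain ⟨Q, _, π, -, h2⟩ := quot' P hP
  let := CStarAlgebra.spectralOrder Q
  have := CStarAlgebra.spectralOrderedRing Q
  rw [← h2] at hc ⊢
  have h1 : π a ≤ π c := OrderHomClass.mono π hac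
  have h0 : π 0 ≤ π a := OrderHomClass.mono π ha
  rw [map_zero] at h0
  exact le_antisymm (hc ▸ h1) h0

lemma count {P : TwoSidedIdeal B} (hP : IsClosed (P : Set B)) {x : B} (sx : IsSelfAdjoint x)
    (hx : x ∉ P) {G : n → B} (G0 : ∀ i, 0 ≤ G i) {C θ : ℝ} (hG : ∑ i, G i ≤ C • (x * x))
    (S : Finset n) (hS : ∀ i ∈ S, (θ • (x * x) - G i)⁺ ∈ P) : S.card * θ ≤ C := by
  by_contra hc
  push Not at hc
  have a0 : 0 ≤ x * x := by simpa only [sx.star_eq] using star_mul_self_nonneg x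
  have h1 : (S.card * θ - C) • (x * x) ≤ ∑ i ∈ S, (θ • (x * x) - G i)⁺ := by
    refine le_trans ?_ (sum_le_sum fun i _ => CFC.le_posPart
      (((IsSelfAdjoint.all θ).smul a0.isSelfAdjoint).sub (G0 i).isSelfAdjoint))
    rw [sum_sub_distrib, sum_const, sub_smul, mul_smul, Nat.cast_smul_eq_nsmul]
    exact sub_le_sub_left ((sum_le_sum_of_subset_of_nonneg (subset_univ S)
      fun i _ _ => G0 i).trans hG) _
  have h2 := mem_of_le hP (smul_nonneg (sub_pos.2 hc).le a0) h1 (sum_mem hS)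
  apply hx
  refine mem_of_star_mul hP ?_
  have := P.mul_mem_left (algebraMap ℝ B (S.card * θ - C)⁻¹) _ h2
  rw [← Algebra.smul_def, smul_smul, inv_mul_cancel₀ (sub_pos.2 hc).ne', one_smul] at this
  rwa [sx.star_eq]

lemma single {g z : B} (g0 : 0 ≤ g) (hg : Le (Fin 1 ⊕ Fin 1) g (Fin 1) g) (hz : InId z g) {ε : ℝ}
    (hε : 0 < ε) : ∃ u : B, ‖star u * g * u - z * star z‖ < ε := by
  obtain ⟨N, h1⟩ := inid g0 hz (ε := ε / 3) (by positivity)
  obtain ⟨u, hu⟩ := (h1.trans (le_card (m := Fin N × Fin 1) g (by simp)) (δ := ε / 3)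
    (by positivity)).trans (le_multi hg) (δ := ε / 3) (by positivity)
  refine ⟨u 0 (), ?_⟩
  have := hu () ()
  rw [if_pos rfl, Fin.sum_univ_one] at this
  linarith

end PA

theorem partA {J : TwoSidedIdeal B} (hF : FP J) (hW : W J 1) {x y : B} (hx : x ∈ J) (hy : y ∈ J)
    (sx : IsSelfAdjoint x) (sy : IsSelfAdjoint y) {ε : ℝ} (hε : 0 < ε) : ∃ s t : B,
    ‖star s * (x * x) * s - x * x‖ < ε ∧ ‖star t * (y * y) * t - y * y‖ < ε ∧
      ‖star s * (x * y) * t‖ < ε := by
  classical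
  have a0 : 0 ≤ x * x := by simpa only [sx.star_eq] using star_mul_self_nonneg x
  have b0 : 0 ≤ y * y := by simpa only [sy.star_eq] using star_mul_self_nonneg y
  obtain ⟨η, η0, η1, η2⟩ : ∃ η : ℝ, 0 < η ∧ η ≤ 1 ∧ η * (2 * ‖x‖ + 1) ≤ ε / 4 :=
    ⟨min 1 (ε / 4 / (2 * ‖x‖ + 1)), by positivity, min_le_left _ _, by
      rw [← le_div_iff₀ (by positivity)]; exact min_le_right _ _⟩
  obtain ⟨M, P, hP, hxP, hP2⟩ := hF x hx η η0
  obtain ⟨θ, θ0, θ1⟩ : ∃ θ : ℝ, 0 < θ ∧ θ * (‖x * x‖ + ε) < ε * ε :=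
    ⟨ε * ε / (‖x * x‖ + ε + 1), by positivity, by
      rw [div_mul_eq_mul_div, div_lt_iff₀ (by positivity)]; nlinarith [mul_pos hε hε]⟩
  obtain ⟨L, hL⟩ := exists_nat_gt ((‖y * y‖ + 1) / θ)
  rw [div_lt_iff₀ θ0] at hL
  set N := M * L + 1 with hN
  obtain ⟨γ, γ0, γ1, γ2, γ3⟩ : ∃ γ : ℝ, 0 < γ ∧ γ ≤ 1 ∧ γ ≤ ε ∧
      γ * (Fintype.card (Fin N × Fin 1)) ^ 2 * (‖y * y‖ + 1) ≤ 1 := by
    refine ⟨min (min 1 ε) (1 / ((N : ℝ) ^ 2 * (‖y * y‖ + 1))), by positivity,
      (min_le_left _ _).trans (min_le_left _ _), (min_le_left _ _).trans (min_le_right _ _), ?_⟩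
    simp only [Fintype.card_prod, Fintype.card_fin, mul_one]
    rw [mul_assoc, ← le_div_iff₀ (by positivity)]
    exact min_le_right _ _
  obtain ⟨t, ht⟩ := le_multi (k := Fin N) (hW _ (J.mul_mem_left y y hy) b0) γ γ0
  simp only [Fin.sum_univ_one] at ht
  have hv : ∀ i j, ‖star (y * t 0 i) * (y * t 0 j) - if i = j then y * y else 0‖ < γ := fun i j => by
    simpa only [star_mul, sy.star_eq, mul_assoc] using ht i j
  have hR := PA.row b0 γ1 γ3 hv
  let G : Fin N × Fin 1 → B := fun i => x * (y * t 0 i) * star (x * (y * t 0 i))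
  have G0 : ∀ i, 0 ≤ G i := fun i => mul_star_self_nonneg _
  have hG : ∑ i, G i ≤ (‖y * y‖ + 1) • (x * x) := by
    have e : ∑ i, G i = star x * (∑ i, y * t 0 i * star (y * t 0 i)) * x := by
      simp only [G, mul_sum, sum_mul, star_mul x, sx.star_eq, mul_assoc]
    rw [e]
    refine (CStarAlgebra.star_left_conjugate_le_norm_smul
      (sum_nonneg fun i _ => mul_star_self_nonneg _).isSelfAdjoint).trans ?_
    rw [sx.star_eq]
    exact smul_le_smul_of_nonneg_right hR a0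
  let K : Fin N × Fin 1 → B := fun i => θ • (x * x) - G i
  have sK : ∀ i, IsSelfAdjoint (K i) := fun i =>
    ((IsSelfAdjoint.all θ).smul a0.isSelfAdjoint).sub (G0 i).isSelfAdjoint
  obtain ⟨i, hi⟩ : ∃ i, ∀ j, (K i)⁺ * K i * (K i)⁺ ∉ P j := by
    by_contra hc
    push Not at hc
    have c1 : ∀ j, (univ.filter fun i => (K i)⁺ ∈ P j).card ≤ L := fun j => by
      have := PA.count (hP.cl j) sx (hxP j) G0 hG (univ.filter fun i => (K i)⁺ ∈ P j)
        fun i hi => (mem_filter.1 hi).2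
      have h2 : ((univ.filter fun i => (K i)⁺ ∈ P j).card : ℝ) < L :=
        lt_of_mul_lt_mul_right (this.trans_lt hL) θ0.le
      exact_mod_cast h2.le
    have c2 : (univ : Finset (Fin N × Fin 1)) ⊆
        univ.biUnion fun j => univ.filter fun i => (K i)⁺ ∈ P j := fun i _ => by
      obtain ⟨j, hj⟩ := hc i
      exact mem_biUnion.2 ⟨j, mem_univ _, mem_filter.2 ⟨mem_univ _,
        PA.pos_mem (hP.cl j) (sK i) hj⟩⟩
    have c3 := (card_le_card c2).trans (card_biUnion_le_card_mul _ _ _ fun j _ => c1 j)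
    simp [hN] at c3
  have KJ : K i ∈ J := by
    refine J.sub_mem ?_ (J.mul_mem_right _ _ (J.mul_mem_right _ _ hx))
    rw [Algebra.smul_def]
    exact J.mul_mem_left _ _ (J.mul_mem_left _ _ hx)
  have gJ : (K i)⁺ * K i * (K i)⁺ ∈ J := J.mul_mem_right _ _ (J.mul_mem_left _ _ KJ)
  have sp : star (K i)⁺ = (K i)⁺ := (CFC.posPart_nonneg _).isSelfAdjoint
  have g0 : 0 ≤ (K i)⁺ * K i * (K i)⁺ := by
    rw [PA.cube (sK i)]
    simpa only [sp] using star_left_conjugate_nonneg (CFC.posPart_nonneg (K i)) (K i)⁺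
  obtain ⟨z, hz, hxz⟩ := hP2 _ gJ hi
  obtain ⟨u, hu⟩ := PA.single g0 (hW _ gJ g0) hz (ε := ε / 4) (by positivity)
  have z1 : ‖z * star z - x * x‖ ≤ ε / 4 := by
    have e : z * star z - x * x =
        (x - z) * star (x - z) - (x - z) * x - x * star (x - z) := by
      rw [star_sub, sx.star_eq]; noncomm_ring
    rw [e]
    have n0 := norm_nonneg (x - z)
    have n1 := norm_mul_le (x - z) (star (x - z))
    have n2 := norm_mul_le (x - z) x
    have n3 := norm_mul_le x (star (x - z))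
    rw [norm_star] at n1 n3
    have n4 := norm_sub_le ((x - z) * star (x - z) - (x - z) * x) (x * star (x - z))
    have n5 := norm_sub_le ((x - z) * star (x - z)) ((x - z) * x)
    nlinarith [norm_nonneg x]
  have u1 : ‖x * x - star u * ((K i)⁺ * K i * (K i)⁺) * u‖ ≤ ε / 2 := by
    rw [norm_sub_rev]
    linarith [norm_sub_le_norm_sub_add_norm_sub (star u * ((K i)⁺ * K i * (K i)⁺) * u)
      (z * star z) (x * x)]
  set d := (K i)⁺ * u with hd
  have e1 : star u * ((K i)⁺ * K i * (K i)⁺) * u =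
      θ • (star d * (x * x) * d) - star d * G i * d := by
    rw [← smul_mul_assoc, ← mul_smul_comm, ← sub_mul, ← mul_sub, hd, star_mul, sp]
    simp only [K, mul_assoc]
  have u0 : 0 ≤ star u * ((K i)⁺ * K i * (K i)⁺) * u := star_left_conjugate_nonneg g0 u
  have dG : 0 ≤ star d * G i * d := star_left_conjugate_nonneg (G0 i) d
  have le1 : star x * x ≤ θ • (star d * (x * x) * d + (ε / 2 / θ) • (1 : B)) := by
    have h1 := (a0.isSelfAdjoint.sub u0.isSelfAdjoint).le_algebraMap_norm_self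
    have h2 : algebraMap ℝ B ‖x * x - star u * ((K i)⁺ * K i * (K i)⁺) * u‖ ≤ (ε / 2) • (1 : B) := by
      rw [Algebra.algebraMap_eq_smul_one]
      exact smul_le_smul_of_nonneg_right u1 zero_le_one
    rw [sx.star_eq, smul_add, smul_smul, mul_div_cancel₀ _ θ0.ne']
    have h3 := h1.trans h2
    rw [e1, sub_le_iff_le_add] at h3
    refine h3.trans ?_
    rw [add_comm]
    exact add_le_add_left (sub_le_self _ dG) _
  obtain ⟨c, hc⟩ := dom (star_left_conjugate_nonneg a0 d) (by positivity) θ0.le le1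
  rw [mul_div_cancel₀ _ θ0.ne', sx.star_eq] at hc
  have e2 : star (d * c) * (x * x) * (d * c) = star c * (star d * (x * x) * d) * c := by
    simp only [star_mul d, mul_assoc]
  refine ⟨d * c, t 0 i, by rw [e2]; linarith, ?_, ?_⟩
  · have := ht i i
    rw [if_pos rfl] at this
    linarith
  · have h1 : star c * (star d * G i * d) * c ≤ θ • (star c * (star d * (x * x) * d) * c) := by
      rw [← smul_mul_assoc, ← mul_smul_comm]
      exact star_left_conjugate_le_conjugate (sub_nonneg.1 (e1 ▸ u0)) c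
    have h2 := CStarAlgebra.norm_le_norm_of_nonneg_of_le (star_left_conjugate_nonneg dG c) h1
    have e3 : star c * (star d * G i * d) * c =
        star (d * c) * (x * y) * t 0 i * star (star (d * c) * (x * y) * t 0 i) := by
      simp only [G, star_mul, star_star, mul_assoc]
    rw [e3, CStarRing.norm_self_mul_star, norm_smul, Real.norm_of_nonneg θ0.le] at h2
    have h3 : ‖star c * (star d * (x * x) * d) * c‖ ≤ ‖x * x‖ + ε := by
      linarith [norm_sub_norm_le (star c * (star d * (x * x) * d) * c) (x * x)]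
    refine lt_of_mul_self_lt_mul_self₀ hε.le (h2.trans_lt (lt_of_le_of_lt ?_ θ1))
    exact mul_le_mul_of_nonneg_left h3 θ0.le

end Vale.Agent.P133
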