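import Vale.Agent.P133.PartCORE

/-! P133, splitting a positive element into two equivalent orthogonal pieces. -/

namespace Vale.Agent.P133

open Finset

variable {B Q : Type} [CStarAlgebra B] [PartialOrder B] [StarOrderedRing B] [CStarAlgebra Q]
  {n m p k : Type} [Fintype n] [DecidableEq n] [Fintype m] [DecidableEq m] [Fintype p]
  [Fintype k] [DecidableEq k]

omit [PartialOrder B] [StarOrderedRing B] in
theorem Fam.not_pr {J : TwoSidedIdeal B} {M : ℕ} {P : Fin M → TwoSidedIdeal B} (hP : Fam J P)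
    (j : Fin M) {u v : B} (hu : u ∈ J) (hv : v ∈ J) (hu0 : u ∉ P j) (hv0 : v ∉ P j) :
    ∃ d, u * d * v ∉ P j := by
  by_contra hc
  push Not at hc
  rcases hP.pr j u hu v hv hc with h | h
  · exact hu0 h
  · exact hv0 h

omit [PartialOrder B] [StarOrderedRing B] in
theorem Fam.avoid0 {J : TwoSidedIdeal B} {M : ℕ} {P : Fin M → TwoSidedIdeal B} (hP : Fam J P)
    (j : Fin M) {u : B} (hu : u ∈ J) (hu0 : u ∉ P j) (S : Finset (Fin M)) :
    ∃ q ∈ J, q ∉ P j ∧ ∀ i ∈ S, i ≠ j → q ∈ P i := by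
  induction S using Finset.induction_on with
  | empty => exact ⟨u, hu, hu0, by simp⟩
  | insert a S ha ih =>
    obtain ⟨q, hq, hq0, hq1⟩ := ih
    by_cases haj : a = j
    · refine ⟨q, hq, hq0, fun i hi hij => ?_⟩
      rcases Finset.mem_insert.1 hi with h | h
      · exact absurd (h.trans haj) hij
      · exact hq1 i h hij
    · have h1 := hP.inc a j haj
      rw [SetLike.le_def] at h1
      push Not at h1
      obtain ⟨r, hr, hr0⟩ := h1
      obtain ⟨d, hd⟩ := hP.not_pr j hq (hP.le a hr) hq0 hr0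
      refine ⟨q * d * r, J.mul_mem_left _ _ (hP.le a hr), hd, fun i hi hij => ?_⟩
      rcases Finset.mem_insert.1 hi with h | h
      · subst h
        exact (P i).mul_mem_left _ _ hr
      · exact (P i).mul_mem_right _ _ ((P i).mul_mem_right _ _ (hq1 i h hij))

omit [PartialOrder B] [StarOrderedRing B] in
theorem Fam.avoid {J : TwoSidedIdeal B} {M : ℕ} {P : Fin M → TwoSidedIdeal B} (hP : Fam J P)
    (j : Fin M) {u v : B} (hu : u ∈ J) (hv : v ∈ J) (hu0 : u ∉ P j) (hv0 : v ∉ P j) :
    ∃ d, u * d * v ∉ P j ∧ ∀ i, i ≠ j → d ∈ P i := by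
  obtain ⟨q, hq, hq0, hq1⟩ := hP.avoid0 j hu hu0 Finset.univ
  obtain ⟨d1, h1⟩ := hP.not_pr j hu hq hu0 hq0
  obtain ⟨d2, h2⟩ := hP.not_pr j (J.mul_mem_left _ _ hq) hv h1 hv0
  refine ⟨d1 * q * d2, by simpa only [mul_assoc] using h2, fun i hi => ?_⟩
  exact (P i).mul_mem_right _ _ ((P i).mul_mem_left _ _ (hq1 i (Finset.mem_univ _) hi))

omit [PartialOrder B] [StarOrderedRing B] in
theorem sum_mem_iff {M : ℕ} (I : TwoSidedIdeal B) (f : Fin M → B) (j : Fin M)
    (h : ∀ i, i ≠ j → f i ∈ I) : ∑ i, f i - f j ∈ I := by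
  rw [← Finset.add_sum_erase _ _ (Finset.mem_univ j), add_sub_cancel_left]
  exact I.finsetSum_mem _ _ fun i hi => h i (Finset.ne_of_mem_erase hi)

/-- a cut-down of a positive element, with a local unit of the form `w b w`. -/
theorem splitCut {b : B} (hb : 0 ≤ b) {δ : ℝ} (hδ : 0 < δ) :
    ∃ c w g : B, IsSelfAdjoint c ∧ IsSelfAdjoint w ∧ c = b * g ∧ w * b * w * c = c ∧
      ‖b - c‖ ≤ δ := by
  have hs : IsSelfAdjoint b := IsSelfAdjoint.of_nonneg hb
  have hm : Continuous fun t : ℝ => max t δ := by fun_prop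
  have hm0 : ∀ t : ℝ, 0 < max t δ := fun t => lt_of_lt_of_le hδ (le_max_right _ _)
  have c0 : Continuous fun t : ℝ => t := continuous_id
  have c1 : Continuous fun t : ℝ => max (t - δ) 0 := by fun_prop
  have c2 : Continuous fun t : ℝ => (√(max t δ))⁻¹ :=
    (Real.continuous_sqrt.comp hm).inv₀ fun t => (Real.sqrt_pos.2 (hm0 t)).ne'
  have c3 : Continuous fun t : ℝ => max (t - δ) 0 / max t δ :=
    c1.div hm fun t => (hm0 t).ne'
  have c4 : Continuous fun t : ℝ => (√(max t δ))⁻¹ * t := c2.mul c0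
  have c5 : Continuous fun t : ℝ => (√(max t δ))⁻¹ * t * (√(max t δ))⁻¹ := c4.mul c2
  refine ⟨cfc (fun t : ℝ => max (t - δ) 0) b, cfc (fun t : ℝ => (√(max t δ))⁻¹) b,
    cfc (fun t : ℝ => max (t - δ) 0 / max t δ) b, cfc_predicate _ _, cfc_predicate _ _, ?_, ?_, ?_⟩
  · have : cfc (fun t : ℝ => max (t - δ) 0) b
        = cfc (fun t : ℝ => t * (max (t - δ) 0 / max t δ)) b := by
      refine cfc_congr fun t _ => ?_
      rcases le_total t δ with h | h
      · simp [max_eq_right (sub_nonpos.2 h)]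
      · have : t ≠ 0 := (lt_of_lt_of_le hδ h).ne'
        simp only [max_eq_left h]
        field_simp
    rw [this, cfc_mul _ _ b c0.continuousOn c3.continuousOn, cfc_id' ℝ b]
  · have : cfc (fun t : ℝ => max (t - δ) 0) b = cfc (fun t : ℝ =>
        (√(max t δ))⁻¹ * t * (√(max t δ))⁻¹ * max (t - δ) 0) b := by
      refine cfc_congr fun t _ => ?_
      rcases le_total t δ with h | h
      · simp [max_eq_right (sub_nonpos.2 h)]
      · have h1 : 0 < t := lt_of_lt_of_le hδ h
        have h2 : √t ≠ 0 := (Real.sqrt_pos.2 h1).ne'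
        have h3 : √t * √t = t := Real.mul_self_sqrt h1.le
        simp only [max_eq_left h]
        have : (√t)⁻¹ * t * (√t)⁻¹ = 1 := by
          field_simp
          nlinarith
        rw [this, one_mul]
    conv_rhs => rw [this]
    rw [cfc_mul _ _ b c5.continuousOn c1.continuousOn,
      cfc_mul _ _ b c4.continuousOn c2.continuousOn,
      cfc_mul _ _ b c2.continuousOn c0.continuousOn, cfc_id' ℝ b]
  · have : b - cfc (fun t : ℝ => max (t - δ) 0) b = cfc (fun t : ℝ => t - max (t - δ) 0) b := by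
      rw [cfc_sub _ _ b c0.continuousOn c1.continuousOn, cfc_id' ℝ b]
    rw [this]
    refine norm_cfc_le hδ.le fun t ht => ?_
    have h0 : 0 ≤ t := spectrum_nonneg_of_nonneg hb ht
    rw [Real.norm_eq_abs, abs_le]
    rcases le_total t δ with h | h
    · rw [max_eq_right (sub_nonpos.2 h)]
      constructor <;> linarith
    · rw [max_eq_left (sub_nonneg.2 h)]
      constructor <;> linarith

/-- two orthogonal copies from a square-zero element. -/
theorem le_of_sq_zero {b w x : B} (hw : IsSelfAdjoint w) (hb : IsSelfAdjoint b)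
    (h1 : w * b * w * x = x) (h2 : x * (w * b * w) = x) (hx : x * x = 0) :
    Le Bool (star x * x) Unit b := by
  intro ε hε
  set e := w * b * w with he
  have hes : star e = e := by
    rw [he, star_mul, star_mul, hw.star_eq, hb.star_eq, mul_assoc]
  set v := CFC.sqrt (star x * x) with hv
  have hv0 : 0 ≤ v := CFC.sqrt_nonneg _
  have hvs : star v = v := (IsSelfAdjoint.of_nonneg hv0).star_eq
  have hvv : v * v = star x * x := CFC.sqrt_mul_sqrt_self _ (star_mul_self_nonneg x)
  have hvx : v * x = 0 := by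
    rw [← CStarRing.star_mul_self_eq_zero_iff, star_mul, hvs]
    calc star x * v * (v * x) = star x * (v * v) * x := by simp only [mul_assoc]
      _ = star x * star x * (x * x) := by rw [hvv]; simp only [mul_assoc]
      _ = 0 := by rw [hx, mul_zero]
  have hxv : star x * v = 0 := by
    have := congrArg star hvx
    rwa [star_mul, hvs, star_zero] at this
  have hve : v * e = v := by
    rw [← sub_eq_zero, ← CStarRing.star_mul_self_eq_zero_iff]
    have h3 : v * e - v = v * (e - 1) := by rw [mul_sub, mul_one]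
    have h4 : x * (e - 1) = 0 := by rw [mul_sub, mul_one, h2, sub_self]
    rw [h3, star_mul, hvs]
    calc star (e - 1) * v * (v * (e - 1)) = star (e - 1) * (v * v) * (e - 1) := by
          simp only [mul_assoc]
      _ = star (e - 1) * star x * (x * (e - 1)) := by rw [hvv]; simp only [mul_assoc]
      _ = 0 := by rw [h4, mul_zero]
  have hev : e * v = v := by
    have := congrArg star hve
    rwa [star_mul, hvs, hes] at this
  have key : ∀ a c : B, e * c = c → star (w * a) * b * (w * c) = star a * c := by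
    intro a c hc
    rw [star_mul, hw.star_eq]
    calc star a * w * b * (w * c) = star a * (w * b * w * c) := by simp only [mul_assoc]
      _ = star a * c := by rw [← he, hc]
  refine ⟨fun _ l => w * (if l then x else v), fun j l => ?_⟩
  rw [Fintype.sum_unique]
  cases j <;> cases l
  · show ‖star (w * v) * b * (w * v) - star x * x‖ < ε
    rw [key v v hev, hvs, hvv, sub_self, norm_zero]
    exact hε
  · show ‖star (w * v) * b * (w * x) - 0‖ < ε
    rw [key v x h1, hvs, hvx, sub_self, norm_zero]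
    exact hε
  · show ‖star (w * x) * b * (w * v) - 0‖ < ε
    rw [key x v hev, hxv, sub_self, norm_zero]
    exact hε
  · show ‖star (w * x) * b * (w * x) - star x * x‖ < ε
    rw [key x x h1, sub_self, norm_zero]
    exact hε

theorem map_nonneg' [PartialOrder Q] [StarOrderedRing Q] (π : B →⋆ₐ[ℂ] Q) {a : B} (ha : 0 ≤ a) :
    0 ≤ π a := by
  have h1 : a = star (CFC.sqrt a) * CFC.sqrt a := by
    rw [(IsSelfAdjoint.of_nonneg (CFC.sqrt_nonneg a)).star_eq, CFC.sqrt_mul_sqrt_self a ha]
  rw [h1, map_mul, map_star]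
  exact star_mul_self_nonneg _

theorem core_id {P : TwoSidedIdeal B} (hP : IsClosed (P : Set B)) {h : B} (hh : IsSelfAdjoint h)
    (h0 : h ∉ P) {N : ℕ} (hN : 1 ≤ N) (hW : Le (Fin N ⊕ Fin N) (h * h) (Fin N) (h * h)) :
    ∃ y : B, IsSelfAdjoint y ∧ ∀ a c : B, 0 ≤ a → 0 ≤ c → a - c - h * y * h ∈ P →
      a * a ∉ P ∧ c * c ∉ P := by
  obtain ⟨Q, _, π, -, hπ⟩ := quot' P hP
  letI := CStarAlgebra.spectralOrder Q
  haveI := CStarAlgebra.spectralOrderedRing Q
  obtain ⟨y, hy, h1, h2⟩ := core π hh (fun h => h0 ((hπ _).1 h)) hN hW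
  refine ⟨y, hy, fun a c ha hc hac => ?_⟩
  have h3 : π (h * y * h) = π a - π c := by
    have := (hπ _).2 hac
    rw [map_sub, map_sub, sub_eq_zero] at this
    exact this.symm
  have h4 : ∀ z : B, 0 ≤ z → z * z ∈ P → π z = 0 := by
    intro z hz hzz
    refine (hπ _).2 (mem_of_star_mul hP ?_)
    rwa [(IsSelfAdjoint.of_nonneg hz).star_eq]
  refine ⟨fun h5 => h2 ?_, fun h5 => h1 ?_⟩
  · rw [h3, h4 a ha h5, zero_sub, neg_nonpos]
    exact map_nonneg' π hc
  · rw [h3, h4 c hc h5, sub_zero]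
    exact map_nonneg' π ha

theorem split {J : TwoSidedIdeal B} {M N : ℕ} {P : Fin M → TwoSidedIdeal B} (hP : Fam J P)
    (hN : 1 ≤ N) (hW : W J N) {b : B} (hb : 0 ≤ b) (hJ : b ∈ J) (h0 : ∀ j, b ∉ P j) :
    ∃ b' ∈ J, 0 ≤ b' ∧ (∀ j, b' ∉ P j) ∧ Le Bool b' Unit b := by
  have hcl : IsClosed (⋃ j, (P j : Set B)) := isClosed_iUnion_of_finite hP.cl
  obtain ⟨δ, hδ, hball⟩ := Metric.isOpen_iff.1 hcl.isOpen_compl b (by simpa using h0)
  obtain ⟨c, w, g, hc, hw, hcg, hec, hbc⟩ := splitCut hb (half_pos hδ)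
  have hc0 : ∀ j, c ∉ P j := by
    have : c ∈ Metric.ball b δ := by
      rw [Metric.mem_ball, dist_comm, dist_eq_norm]
      linarith
    simpa using hball this
  have hcJ : c ∈ J := hcg ▸ J.mul_mem_right _ _ hJ
  set e := w * b * w with he
  have hes : star e = e := by
    rw [he, star_mul, star_mul, hw.star_eq, (IsSelfAdjoint.of_nonneg hb).star_eq, mul_assoc]
  have hce : c * e = c := by
    have := congrArg star hec
    rwa [star_mul, hc.star_eq, hes] at this
  choose d hd hd' using fun j => hP.avoid j hcJ hcJ (hc0 j) (hc0 j)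
  set h : Fin M → B := fun j => star (c * d j * c) * (c * d j * c) with hh
  have hhs : ∀ j, IsSelfAdjoint (h j) := fun j => IsSelfAdjoint.star_mul_self _
  have hh0 : ∀ j, h j ∉ P j := fun j h1 => hd j (mem_of_star_mul (hP.cl j) h1)
  have hhJ : ∀ j, h j ∈ J := fun j => J.mul_mem_left _ _ (J.mul_mem_left _ _ hcJ)
  have hhP : ∀ j i, i ≠ j → h j ∈ P i := fun j i hi =>
    (P i).mul_mem_left _ _ ((P i).mul_mem_right _ _ ((P i).mul_mem_left _ _ (hd' j i hi)))
  have hhe : ∀ j, h j * e = h j := fun j => by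
    simp only [hh, mul_assoc, hce]
  have hhe' : ∀ j, e * h j = h j := fun j => by
    have := congrArg star (hhe j)
    rwa [star_mul, (hhs j).star_eq, hes] at this
  have hWj : ∀ j, Le (Fin N ⊕ Fin N) (h j * h j) (Fin N) (h j * h j) := fun j =>
    hW _ (J.mul_mem_left _ _ (hhJ j)) (by
      have := star_mul_self_nonneg (h j)
      rwa [(hhs j).star_eq] at this)
  choose y hy hy' using fun j => core_id (hP.cl j) (hhs j) (hh0 j) hN (hWj j)
  set K : B := ∑ j, h j * y j * h j with hK
  have hKs : IsSelfAdjoint K := by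
    rw [IsSelfAdjoint, hK, star_sum]
    refine Finset.sum_congr rfl fun j _ => ?_
    rw [star_mul (h j * y j) (h j), star_mul (h j) (y j), (hhs j).star_eq, (hy j).star_eq,
      mul_assoc (h j) (y j) (h j)]
  have hKJ : K ∈ J := J.finsetSum_mem _ _ fun j _ => J.mul_mem_left _ _ (hhJ j)
  have hKe : K * e = K := by
    rw [hK, Finset.sum_mul]
    exact Finset.sum_congr rfl fun j _ => by rw [mul_assoc, hhe]
  have hKe' : e * K = K := by
    have := congrArg star hKe
    rwa [star_mul, hKs.star_eq, hes] at this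
  have hpn : K⁺ - K⁻ = K := CFC.posPart_sub_negPart K hKs
  have hnp : K⁻ * K⁺ = 0 := CFC.negPart_mul_posPart K
  have hp0 : (0 : B) ≤ K⁺ := CFC.posPart_nonneg K
  have hn0 : (0 : B) ≤ K⁻ := CFC.negPart_nonneg K
  generalize K⁺ = a at hpn hnp hp0
  generalize K⁻ = a' at hpn hnp hn0
  have e1 : a * a = K * a := by rw [← hpn, sub_mul, hnp, sub_zero]
  have e2 : a' * a' = -(a' * K) := by rw [← hpn, mul_sub, hnp, zero_sub, neg_neg]
  have hav : ∀ j, a * a ∉ P j ∧ a' * a' ∉ P j := fun j => hy' j a a' hp0 hn0 (by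
    rw [hpn]
    exact sum_mem_iff (P j) (fun i => h i * y i * h i) j fun i hi =>
      (P j).mul_mem_left _ _ (hhP i j hi.symm))
  have haJ : a * a ∈ J := e1 ▸ J.mul_mem_right _ _ hKJ
  have haJ' : a' * a' ∈ J := e2 ▸ J.neg_mem (J.mul_mem_left _ _ hKJ)
  choose f hf hf' using fun j => hP.avoid j haJ haJ' (hav j).1 (hav j).2
  set x : B := a * a * (∑ j, f j) * (a' * a') with hx
  have hx0 : ∀ j, x ∉ P j := by
    intro j hj
    apply hf j
    have h1 : a * a * (∑ i, f i - f j) * (a' * a') ∈ P j :=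
      (P j).mul_mem_right _ _ ((P j).mul_mem_left _ _
        (sum_mem_iff (P j) f j fun i hi => hf' i j hi.symm))
    have h2 := (P j).sub_mem hj h1
    rwa [hx, mul_sub, sub_mul, sub_sub_cancel] at h2
  have hxJ : x ∈ J := J.mul_mem_left _ _ haJ'
  refine ⟨star x * x, J.mul_mem_left _ _ hxJ, star_mul_self_nonneg x,
    fun j hj => hx0 j (mem_of_star_mul (hP.cl j) hj), ?_⟩
  refine le_of_sq_zero hw (IsSelfAdjoint.of_nonneg hb) ?_ ?_ ?_
  · have h1 : e * (a * a) = a * a := by rw [e1, ← mul_assoc, hKe']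
    rw [← he, hx, ← mul_assoc e, ← mul_assoc e, h1]
  · have h1 : a' * a' * e = a' * a' := by rw [e2, neg_mul, mul_assoc a', hKe]
    rw [← he, hx, mul_assoc _ (a' * a') e, h1]
  · calc x * x = a * a * (∑ j, f j) * a' * (a' * a) * (a * (∑ j, f j) * (a' * a')) := by
          simp only [hx, mul_assoc]
      _ = 0 := by rw [hnp, mul_zero, zero_mul]

end Vale.Agent.P133
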