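import Vale.Agent.P133.PartLE
import Vale.Agent.P133.PartDOM
import Vale.Agent.P133.PartSPLIT

/-! Weakly purely infinite implies purely infinite. -/

namespace Vale.Agent.P133

open Finset

variable {B Q : Type} [CStarAlgebra B] [PartialOrder B] [StarOrderedRing B] [CStarAlgebra Q]
  {n m p k : Type} [Fintype n] [DecidableEq n] [Fintype m] [DecidableEq m] [Fintype p]
  [Fintype k] [DecidableEq k]

theorem PB.trans {h g f : B} (h1 : Le n h m g) (h2 : Le m g p f) : Le n h p f := fun ε hε => by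
  have := (h1 _ (half_pos hε)).trans h2 (half_pos hε)
  rwa [add_halves] at this

theorem PB.iter {J : TwoSidedIdeal B} {M N : ℕ} {P : Fin M → TwoSidedIdeal B} (hP : Fam J P)
    (hN : 1 ≤ N) (hW : W J N) {b : B} (hb : 0 ≤ b) (hJ : b ∈ J) (h0 : ∀ j, b ∉ P j) (r : ℕ) :
    ∃ b' ∈ J, 0 ≤ b' ∧ (∀ j, b' ∉ P j) ∧ Le (Fin (r + 1)) b' Unit b := by
  induction r with
  | zero => exact ⟨b, hJ, hb, h0, le_card b (by simp)⟩
  | succ r ih =>
    obtain ⟨c, c1, c2, c3, c4⟩ := ih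
    obtain ⟨d, d1, d2, d3, d4⟩ := split hP hN hW c2 c1 c3
    refine ⟨d, d1, d2, d3, PB.trans (le_card (m := Fin (r + 1) × Bool) d (by simp))
      (PB.trans (m := Fin (r + 1) × Unit) (fun ε hε => (d4 ε hε).amp hε)
        (PB.trans (le_card c (by simp)) c4))⟩

theorem partB {J : TwoSidedIdeal B} (hJ : IsClosed (J : Set B)) (hF : FP J) {N : ℕ} (hN : 1 ≤ N)
    (hW : W J N) : W J 1 := by
  intro h hh h0 ε hε
  obtain ⟨x, hx, e⟩ : ∃ x : B, star x = x ∧ x * x = h :=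
    ⟨CFC.sqrt h, (IsSelfAdjoint.of_nonneg (CFC.sqrt_nonneg h)).star_eq, CFC.sqrt_mul_sqrt_self h h0⟩
  have hp : 0 < 2 * ‖x‖ + 1 := by positivity
  obtain ⟨M, P, hP, h1, h2⟩ := hF x (mem_of_star_mul hJ (by rwa [hx, e]))
    (min 1 (ε / 4 / (2 * ‖x‖ + 1))) (by positivity)
  obtain ⟨r, rfl⟩ : ∃ r, N = r + 1 := ⟨N - 1, by omega⟩
  obtain ⟨b, b1, b2, b3, b4⟩ := PB.iter hP hN hW h0 hh
    (fun j hj => h1 j (mem_of_star_mul (hP.cl j) (by rwa [hx, e]))) r
  obtain ⟨z, z1, z2⟩ := h2 b b1 b3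
  obtain ⟨K, y, hy⟩ := inid b2 z1 (show 0 < ε / 4 by positivity)
  have z3 : ‖z * star z - h‖ ≤ ε / 4 := by
    have e1 : z * star z - h = (x - z) * star (x - z) - x * star (x - z) - (x - z) * x := by
      rw [star_sub, hx, ← e]; noncomm_ring
    have a1 := (lt_min_iff.1 z2).1
    have a2 := (lt_div_iff₀ hp).1 (lt_min_iff.1 z2).2
    have a3 := norm_mul_le (x - z) (star (x - z))
    have a4 := norm_mul_le x (star (x - z))
    have a5 := norm_mul_le (x - z) x
    rw [norm_star] at a3 a4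
    rw [e1]
    refine (norm_sub_le _ _).trans ((add_le_add (norm_sub_le _ _) le_rfl).trans ?_)
    nlinarith [norm_nonneg (x - z), norm_nonneg x]
  have l1 : LeE (ε / 2) Unit h (Fin K) b := ⟨y, fun j k => by
    have := hy j k
    rw [if_pos rfl] at this ⊢
    have t := norm_add_le (∑ i, star (y i j) * b * y i k - z * star z) (z * star z - h)
    rw [sub_add_sub_cancel] at t
    linarith⟩
  have l2 : Le ((Fin 1 ⊕ Fin 1) × Fin K) b (Fin 1) h :=
    PB.trans (le_card (m := ((Fin 1 ⊕ Fin 1) × Fin K) × Fin (r + 1)) b (by simp; nlinarith))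
      (PB.trans (le_multi (hW b b1 b2)) (PB.trans b4 (le_card h (by simp))))
  obtain ⟨w, hw⟩ := (l1.amp (k := Fin 1 ⊕ Fin 1) (half_pos hε)).trans l2 (half_pos hε)
  rw [add_halves] at hw
  exact ⟨fun i j => w i (j, ()), fun j k => by simpa using hw (j, ()) (k, ())⟩

end Vale.Agent.P133
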