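import Vale.Agent.P133.Work

/-! Part CORE of P133. -/

namespace Vale.Agent.P133

open Finset

variable {B Q : Type} [CStarAlgebra B] [PartialOrder B] [StarOrderedRing B] [CStarAlgebra Q]

namespace CORE

lemma real_scalar [PartialOrder Q] [StarOrderedRing Q] {a z : Q} (ha : IsSelfAdjoint a)
    (hz : IsSelfAdjoint z)
    (H : ∀ t : ℝ, 0 ≤ a * z * a - t • (a * a) ∨ a * z * a - t • (a * a) ≤ 0) :
    ∃ t : ℝ, a * z * a = t • (a * a) := by
  have hc : Continuous fun t : ℝ => a * z * a - t • (a * a) := by fun_prop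
  have e : ∀ t : ℝ, star a * algebraMap ℝ Q t * a = t • (a * a) := fun t => by
    rw [ha.star_eq, Algebra.algebraMap_eq_smul_one, mul_smul_comm, mul_one, smul_mul_assoc]
  obtain ⟨t, -, h1, h2⟩ := isPreconnected_closed_iff.1 (isPreconnected_univ (α := ℝ))
    {t | 0 ≤ a * z * a - t • (a * a)} {t | a * z * a - t • (a * a) ≤ 0}
    (isClosed_le continuous_const hc) (isClosed_le hc continuous_const) (fun t _ => H t)
    ⟨-‖z‖, trivial, by
      have := star_left_conjugate_le_conjugate hz.neg_algebraMap_norm_le_self a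
      rw [← map_neg, e, ha.star_eq] at this
      exact sub_nonneg.2 this⟩
    ⟨‖z‖, trivial, by
      have := star_left_conjugate_le_conjugate hz.le_algebraMap_norm_self a
      rw [e, ha.star_eq] at this
      exact sub_nonpos.2 this⟩
  exact ⟨t, sub_eq_zero.1 (le_antisymm h2 h1)⟩

lemma gram {N : ℕ} (hN : 1 ≤ N) (α : Fin N → Fin N ⊕ Fin N → ℂ)
    (h : ∀ j k, ‖∑ i, star (α i j) * α i k - if j = k then 1 else 0‖ < 1 / (2 * N)) : False := by
  obtain ⟨β, hβ, h0⟩ : ∃ β, β ≠ 0 ∧ (Matrix.of α).mulVecLin β = 0 := by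
    have := LinearMap.ker_ne_bot_of_finrank_lt (f := (Matrix.of α).mulVecLin) (by simp; omega)
    obtain ⟨β, h1, h2⟩ := (Submodule.ne_bot_iff _).1 this
    exact ⟨β, h2, h1⟩
  have : Nonempty (Fin N ⊕ Fin N) := ⟨.inl ⟨0, hN⟩⟩
  obtain ⟨j, -, hj⟩ := exists_max_image univ (fun k => ‖β k‖) univ_nonempty
  have hp : 0 < ‖β j‖ := by
    obtain ⟨k, hk⟩ := Function.ne_iff.1 hβ
    exact (norm_pos_iff.2 hk).trans_le (hj k (mem_univ _))
  have e : ∑ k, (∑ i, star (α i j) * α i k - if j = k then 1 else 0) * β k = -β j := by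
    simp only [sub_mul, sum_sub_distrib, sum_mul, ite_mul, one_mul, zero_mul, sum_ite_eq, mem_univ,
      if_true]
    rw [sum_comm, sum_eq_zero, zero_sub]
    intro i _
    have := congrFun h0 i
    simp only [Matrix.mulVecLin_apply, Matrix.mulVec, dotProduct, Matrix.of_apply,
      Pi.zero_apply] at this
    simp only [mul_assoc, ← mul_sum, this, mul_zero]
  have hN' : (0 : ℝ) < N := by exact_mod_cast hN
  have : ‖β j‖ < ‖β j‖ := by
    calc ‖β j‖ = ‖-β j‖ := (norm_neg _).symm
      _ ≤ ∑ k, ‖(∑ i, star (α i j) * α i k - if j = k then 1 else 0) * β k‖ :=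
          e ▸ norm_sum_le _ _
      _ < ∑ _k : Fin N ⊕ Fin N, 1 / (2 * N) * ‖β j‖ := by
          refine sum_lt_sum_of_nonempty univ_nonempty fun k _ => ?_
          rw [norm_mul]
          exact mul_lt_mul' (hj k (mem_univ _)) (h j k) (norm_nonneg _) hp |>.trans_eq' (mul_comm _ _)
            |>.trans_eq (mul_comm _ _)
      _ = ‖β j‖ := by
          simp only [sum_const, card_univ, Fintype.card_sum, Fintype.card_fin, nsmul_eq_mul]
          push_cast
          field_simp
          ring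
  exact lt_irrefl _ this

end CORE

theorem core [PartialOrder Q] [StarOrderedRing Q] (π : B →⋆ₐ[ℂ] Q) {h : B} (hh : IsSelfAdjoint h)
    (h0 : π h ≠ 0) {N : ℕ} (hN : 1 ≤ N) (hW : Le (Fin N ⊕ Fin N) (h * h) (Fin N) (h * h)) :
    ∃ y : B, IsSelfAdjoint y ∧ ¬ 0 ≤ π (h * y * h) ∧ ¬ π (h * y * h) ≤ 0 := by
  by_contra H
  push Not at H
  have ha : IsSelfAdjoint (π h) := hh.map π
  set a := π h with hadef
  have s1 : ∀ y : B, IsSelfAdjoint y → ∃ t : ℝ, a * π y * a = t • (a * a) := fun y hy =>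
    CORE.real_scalar ha (hy.map π) fun t => by
      have hy' : IsSelfAdjoint (y - (t : ℂ) • (1 : B)) :=
        hy.sub (IsSelfAdjoint.smul (by simp [IsSelfAdjoint]) (.one B))
      have e : π (h * (y - (t : ℂ) • (1 : B)) * h) = a * π y * a - t • (a * a) := by
        rw [← Complex.coe_smul]
        simp only [map_mul, map_sub, map_smul, map_one, mul_sub, sub_mul, mul_smul_comm,
          smul_mul_assoc, mul_one, hadef]
      rw [← e]
      exact or_iff_not_imp_left.2 (H _ hy')
  have s2 : ∀ d : B, ∃ α : ℂ, a * π d * a = α • (a * a) := fun d => by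
    obtain ⟨t, ht⟩ := s1 _ (realPart d).2
    obtain ⟨u, hu⟩ := s1 _ (imaginaryPart d).2
    refine ⟨t + Complex.I * u, ?_⟩
    conv_lhs => rw [← realPart_add_I_smul_imaginaryPart d]
    rw [map_add, map_smul, mul_add, add_mul, mul_smul_comm, smul_mul_assoc, ht, hu, add_smul,
      mul_smul, Complex.coe_smul, Complex.coe_smul]
  have hp : 0 < ‖a‖ := norm_pos_iff.2 h0
  have sa2 : IsSelfAdjoint (a * a) := by rw [IsSelfAdjoint, star_mul, ha.star_eq]
  have n4 : ‖a * a * (a * a)‖ = ‖a‖ ^ 4 := by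
    rw [sa2.norm_mul_self, ha.norm_mul_self]; ring
  have hN' : (0 : ℝ) < N := by exact_mod_cast hN
  obtain ⟨x, hx⟩ := hW (‖a‖ ^ 2 / (2 * N)) (by positivity)
  choose α hα using fun i j => s2 (x i j)
  refine CORE.gram hN α fun j k => ?_
  have e : a * π (∑ i, star (x i j) * (h * h) * x i k - if j = k then h * h else 0) * a =
      (∑ i, star (α i j) * α i k - if j = k then 1 else 0) • (a * a * (a * a)) := by
    rw [map_sub, map_sum, mul_sub, sub_mul, sub_smul, mul_sum, sum_mul, sum_smul]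
    congr 1
    · refine sum_congr rfl fun i _ => ?_
      have := congrArg star (hα i j)
      rw [star_mul, star_mul, ha.star_eq, star_smul, sa2.star_eq] at this
      rw [mul_smul, ← mul_smul_comm, ← hα, ← smul_mul_assoc, ← this]
      simp only [map_mul, map_star, mul_assoc, hadef]
    · split_ifs <;> simp [hadef, mul_assoc]
  have h1 := congrArg norm e
  rw [norm_smul, n4] at h1
  have h2 := (NonUnitalStarAlgHom.norm_apply_le π _).trans_lt (hx j k)
  have h3 : ‖a * π (∑ i, star (x i j) * (h * h) * x i k - if j = k then h * h else 0) * a‖ <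
      ‖a‖ * (‖a‖ ^ 2 / (2 * N)) * ‖a‖ :=
    (norm_mul₃_le.trans_lt (by gcongr))
  rw [h1] at h3
  refine lt_of_mul_lt_mul_right (h3.trans_eq ?_) (pow_pos hp 4).le
  ring

end Vale.Agent.P133
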