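import Vale.Agent.P133.PartA
import Vale.Agent.P133.PartB

/-! Part GL: passage to the unitization. -/

namespace Vale.Agent.P133

open Finset Filter Topology

namespace Glu

variable {C : Type} [NonUnitalCStarAlgebra C]

/-- The ideal `C` of the unitization. -/
def JJ (C : Type) [NonUnitalCStarAlgebra C] : TwoSidedIdeal (Unitization ℂ C) :=
  TwoSidedIdeal.ker (Unitization.fstHom (R := ℂ) (A := C))

lemma mem_JJ {b : Unitization ℂ C} : b ∈ JJ C ↔ ∃ a : C, (a : Unitization ℂ C) = b := by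
  rw [JJ, TwoSidedIdeal.mem_ker]
  refine ⟨fun h => ⟨b.snd, Unitization.ext h.symm rfl⟩, ?_⟩
  rintro ⟨a, rfl⟩
  rfl

lemma closed_img {S : Set C} (hS : IsClosed S) :
    IsClosed {b : Unitization ℂ C | ∃ a ∈ S, (a : Unitization ℂ C) = b} :=
  (Unitization.isometry_inr (𝕜 := ℂ) (A := C)).isClosedEmbedding.isClosedMap S hS

lemma closed_JJ : IsClosed (JJ C : Set (Unitization ℂ C)) := by
  have : (JJ C : Set (Unitization ℂ C)) = {b | ∃ a ∈ Set.univ, ((a : C) : Unitization ℂ C) = b} :=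
    Set.ext fun b => mem_JJ.trans ⟨fun ⟨a, h⟩ => ⟨a, trivial, h⟩, fun ⟨a, _, h⟩ => ⟨a, h⟩⟩
  rw [this]
  exact closed_img isClosed_univ

lemma smul_mem {P : TwoSidedIdeal C} (hP : IsClosed (P : Set C)) (r : ℂ) {a : C} (ha : a ∈ P) :
    r • a ∈ P := by
  let _ := CStarAlgebra.spectralOrder C
  have _ := CStarAlgebra.spectralOrderedRing C
  have hl := CStarAlgebra.increasingApproximateUnit C
  refine hP.mem_of_tendsto ((hl.tendsto_mul_right a).const_smul r) (Eventually.of_forall fun e => ?_)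
  rw [← smul_mul_assoc]
  exact P.mul_mem_left _ _ ha

/-- A closed ideal of `C` as an ideal of the unitization. -/
def up (P : TwoSidedIdeal C) (hP : IsClosed (P : Set C)) : TwoSidedIdeal (Unitization ℂ C) :=
  TwoSidedIdeal.mk' {b | ∃ a ∈ P, (a : Unitization ℂ C) = b} ⟨0, P.zero_mem, rfl⟩
    (by
      rintro _ _ ⟨a, ha, rfl⟩ ⟨b, hb, rfl⟩
      exact ⟨a + b, P.add_mem ha hb, Unitization.inr_add _ _ _⟩)
    (by
      rintro _ ⟨a, ha, rfl⟩
      exact ⟨-a, P.neg_mem ha, Unitization.inr_neg _ _⟩)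
    (by
      rintro x _ ⟨a, ha, rfl⟩
      refine ⟨x.fst • a + x.snd * a, P.add_mem (smul_mem hP _ ha) (P.mul_mem_left _ _ ha), ?_⟩
      induction x using Unitization.ind with
      | inl_add_inr r c => simp [add_mul, Unitization.inl_mul_inr])
    (by
      rintro _ x ⟨a, ha, rfl⟩
      refine ⟨x.fst • a + a * x.snd, P.add_mem (smul_mem hP _ ha) (P.mul_mem_right _ _ ha), ?_⟩
      induction x using Unitization.ind with
      | inl_add_inr r c => simp [mul_add, Unitization.inr_mul_inl])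

lemma mem_up {P : TwoSidedIdeal C} {hP : IsClosed (P : Set C)} {b : Unitization ℂ C} :
    b ∈ up P hP ↔ ∃ a ∈ P, (a : Unitization ℂ C) = b :=
  TwoSidedIdeal.mem_mk' _ _ _ _ _ _ _

lemma inr_up {P : TwoSidedIdeal C} {hP : IsClosed (P : Set C)} {a : C} :
    (a : Unitization ℂ C) ∈ up P hP ↔ a ∈ P :=
  mem_up.trans ⟨fun ⟨_, h, e⟩ => Unitization.inr_injective (R := ℂ) e ▸ h, fun h => ⟨a, h, rfl⟩⟩

lemma fp (h : FinitelyPrimeControlled C) : FP (JJ C) := by
  intro a ha ε hε
  obtain ⟨a, rfl⟩ := mem_JJ.1 ha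
  obtain ⟨m, P, h1, h2, h3⟩ := h a ε hε
  refine ⟨m, fun j => up (P j) (h1 j).1, ⟨fun j => ?_, fun j b hb => ?_, fun j u hu v hv H => ?_,
    fun i j hij H => h2 i j hij fun c hc => inr_up.1 (H (inr_up.2 hc))⟩,
    fun j H => (h1 j).2.1 (inr_up.1 H), fun g hg H => ?_⟩
  · have : (up (P j) (h1 j).1 : Set (Unitization ℂ C)) =
        {b | ∃ a ∈ (P j : Set C), (a : Unitization ℂ C) = b} := Set.ext fun b => mem_up
    rw [this]
    exact closed_img (h1 j).1
  · obtain ⟨c, -, rfl⟩ := mem_up.1 hb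
    exact mem_JJ.2 ⟨c, rfl⟩
  · obtain ⟨u, rfl⟩ := mem_JJ.1 hu
    obtain ⟨v, rfl⟩ := mem_JJ.1 hv
    rw [inr_up, inr_up]
    refine (h1 j).2.2 u v fun d => (inr_up (hP := (h1 j).1)).1 ?_
    rw [Unitization.inr_mul, Unitization.inr_mul]
    exact H d
  · obtain ⟨g, rfl⟩ := mem_JJ.1 hg
    let S := P101.Q2.sums {(g : Unitization ℂ C)}
    let I : TwoSidedIdeal C := TwoSidedIdeal.mk' {z : C | InId (z : Unitization ℂ C) g}
      (subset_closure S.zero_mem)
      (fun {x y} hx hy => by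
        show ((x + y : C) : Unitization ℂ C) ∈ closure (S : Set (Unitization ℂ C))
        rw [Unitization.inr_add]
        exact map_mem_closure₂ continuous_add hx hy fun _ a _ b => S.add_mem a b)
      (fun {x} hx => by
        show ((-x : C) : Unitization ℂ C) ∈ closure (S : Set (Unitization ℂ C))
        rw [Unitization.inr_neg]
        exact map_mem_closure continuous_neg hx fun _ a => S.neg_mem a)
      (fun {x y} hy => by
        show ((x * y : C) : Unitization ℂ C) ∈ closure (S : Set (Unitization ℂ C))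
        rw [Unitization.inr_mul]
        exact map_mem_closure (continuous_const_mul _) hy fun _ a => S.mul_mem_left _ _ a)
      (fun {x y} hx => by
        show ((x * y : C) : Unitization ℂ C) ∈ closure (S : Set (Unitization ℂ C))
        rw [Unitization.inr_mul]
        exact map_mem_closure (f := fun w => w * (y : Unitization ℂ C)) (continuous_mul_const _) hx
          fun _ a => S.mul_mem_right _ _ a)
    have mI : ∀ z : C, z ∈ I ↔ InId (z : Unitization ℂ C) g := fun z =>
      TwoSidedIdeal.mem_mk' _ _ _ _ _ _ _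
    have cI : IsClosed (I : Set C) := by
      have : (I : Set C) = (fun z : C => (z : Unitization ℂ C)) ⁻¹'
          closure (S : Set (Unitization ℂ C)) := Set.ext mI
      rw [this]
      exact isClosed_closure.preimage (Unitization.isometry_inr (𝕜 := ℂ) (A := C)).continuous
    obtain ⟨z, hz, hz'⟩ := h3 I cI fun j hj => H j (inr_up.2 (hj ((mI g).2 (subset_closure
      (P101.Q2.mem_sums.2 ⟨1, fun _ => 1, fun _ => g, fun _ => 1, fun _ => rfl, by simp⟩)))))
    exact ⟨z, (mI z).1 hz, by rwa [← Unitization.inr_sub, Unitization.norm_inr]⟩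

lemma unit (a b : C) {ε : ℝ} (hε : 0 < ε) : ∃ e : C, star e = e ∧ ‖e‖ ≤ 1 ∧
    ‖e * a * e - a‖ < ε ∧ ‖e * b * e - b‖ < ε := by
  let _ := CStarAlgebra.spectralOrder C
  have _ := CStarAlgebra.spectralOrderedRing C
  have hl := CStarAlgebra.increasingApproximateUnit C
  have key : ∀ a : C, ∀ᶠ e in CStarAlgebra.approximateUnit C, ‖e * a * e - a‖ < ε := fun a => by
    filter_upwards [hl.eventually_norm,
      Metric.tendsto_nhds.1 (hl.tendsto_mul_left a) _ (half_pos hε),
      Metric.tendsto_nhds.1 (hl.tendsto_mul_right a) _ (half_pos hε)] with e h0 h1 h2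
    rw [dist_eq_norm] at h1 h2
    rw [show e * a * e - a = e * (a * e - a) + (e * a - a) by noncomm_ring]
    have := norm_mul_le_of_le h0 (le_refl ‖a * e - a‖)
    linarith [norm_add_le (e * (a * e - a)) (e * a - a)]
  exact (hl.eventually_star_eq.and (hl.eventually_norm.and ((key a).and (key b)))).exists

lemma cut {e : C} (h2 : ‖e‖ ≤ 1) (x : Unitization ℂ C) :
    ‖(e : Unitization ℂ C) * x * e‖ ≤ ‖x‖ := by
  rw [← Unitization.norm_inr (𝕜 := ℂ)] at h2
  exact (norm_mul_le_of_le (norm_mul_le_of_le h2 le_rfl) h2).trans_eq (by ring)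

lemma down (x : Unitization ℂ C) (e : C) : ∃ c : C, (c : Unitization ℂ C) = x * e :=
  mem_JJ.1 ((JJ C).mul_mem_left _ _ (mem_JJ.2 ⟨e, rfl⟩))

lemma inr_expr {n : ℕ} (h : C) (x : Fin n → Fin n ⊕ Fin n → C) (j k : Fin n ⊕ Fin n) :
    ‖∑ i, star (x i j) * h * x i k - if j = k then h else 0‖ =
      ‖∑ i, star (x i j : Unitization ℂ C) * h * x i k -
        if j = k then (h : Unitization ℂ C) else 0‖ := by
  rw [← Unitization.norm_inr (𝕜 := ℂ), Unitization.inr_sub]
  congr 2
  · refine (map_sum (Unitization.inrHom ℂ ℂ C) _ _).trans (sum_congr rfl fun i _ => ?_)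
    show ((star (x i j) * h * x i k : C) : Unitization ℂ C) = _
    rw [Unitization.inr_mul, Unitization.inr_mul, Unitization.inr_star]
  · split_ifs <;> rfl

variable [PartialOrder C] [StarOrderedRing C]

lemma w_up {n : ℕ} (H : ∀ h : C, 0 ≤ h → AmpProperlyInfinite n h) : W (JJ C) n := by
  intro h hJ h0 ε hε
  obtain ⟨h, rfl⟩ := mem_JJ.1 hJ
  obtain ⟨x, hx⟩ := H h (Unitization.inr_nonneg_iff.1 h0) ε hε
  exact ⟨fun i j => x i j, fun j k => (inr_expr h x j k).symm.trans_lt (hx j k)⟩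

lemma w_down {n : ℕ} (H : W (JJ C) n) (h : C) (h0 : 0 ≤ h) : AmpProperlyInfinite n h := by
  intro ε hε
  obtain ⟨x, hx⟩ := H h (mem_JJ.2 ⟨h, rfl⟩) (Unitization.inr_nonneg_iff.2 h0) _ (half_pos hε)
  obtain ⟨e, e1, e2, e3, -⟩ := unit h h (half_pos hε)
  choose c hc using fun i j => down (x i j) e
  refine ⟨c, fun j k => ?_⟩
  have e4 : star (e : Unitization ℂ C) = e := by rw [← Unitization.inr_star, e1]
  have e5 : ‖(e : Unitization ℂ C) * h * e - h‖ < ε / 2 := by
    rwa [← Unitization.inr_mul, ← Unitization.inr_mul, ← Unitization.inr_sub, Unitization.norm_inr]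
  have a1 := (cut e2 _).trans_lt (hx j k)
  rw [inr_expr]
  simp only [hc, star_mul, e4]
  rw [mul_sub, sub_mul, mul_sum, sum_mul] at a1
  simp only [mul_assoc] at a1 e5 ⊢
  split_ifs at a1 ⊢
  · linarith [norm_sub_le_norm_sub_add_norm_sub
      (∑ i, (e : Unitization ℂ C) * (star (x i j) * (h * (x i k * e)))) (e * (h * e)) h]
  · simp only [zero_mul, mul_zero] at a1
    linarith

end Glu

open Glu in
theorem main (C : Type) [NonUnitalCStarAlgebra C] [PartialOrder C] [StarOrderedRing C]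
    (h : FinitelyPrimeControlled C) :
    (WeaklyPurelyInfinite C → PurelyInfinite C) ∧ (PurelyInfinite C → StronglyPurelyInfinite C) := by
  refine ⟨fun ⟨n, hn, H⟩ => w_down (partB closed_JJ (fp h) hn (w_up H)), fun H x y hx hy ε hε => ?_⟩
  obtain ⟨s, t, a1, a2, a3⟩ := partA (fp h) (w_up H) (mem_JJ.2 ⟨x, rfl⟩) (mem_JJ.2 ⟨y, rfl⟩)
    (hx.isSelfAdjoint.inr ℂ) (hy.isSelfAdjoint.inr ℂ) (half_pos hε)
  obtain ⟨e, e1, e2, e3, e4⟩ := unit (x * x) (y * y) (half_pos hε)
  obtain ⟨s', hs⟩ := down s e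
  obtain ⟨t', ht⟩ := down t e
  have e5 : star (e : Unitization ℂ C) = e := by rw [← Unitization.inr_star, e1]
  have key : ∀ (a : C) (u : Unitization ℂ C) (u' : C), (u' : Unitization ℂ C) = u * e →
      ‖star u * ((a : Unitization ℂ C) * a) * u - a * a‖ < ε / 2 →
      ‖e * (a * a) * e - a * a‖ < ε / 2 → ‖star u' * (a * a) * u' - a * a‖ < ε := by
    intro a u u' hu b1 b2
    rw [← Unitization.norm_inr (𝕜 := ℂ)] at b2 ⊢
    have b3 := (cut e2 _).trans_lt b1
    simp only [Unitization.inr_sub, Unitization.inr_mul, Unitization.inr_star, hu, star_mul, e5,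
      mul_sub, sub_mul, mul_assoc] at b2 b3 ⊢
    linarith [norm_sub_le_norm_sub_add_norm_sub
      ((e : Unitization ℂ C) * (star u * (a * (a * (u * e))))) (e * (a * (a * e))) (a * a)]
  refine ⟨s', t', key x s s' hs a1 e3, key y t t' ht a2 e4, ?_⟩
  rw [← Unitization.norm_inr (𝕜 := ℂ)]
  have b3 := (cut e2 _).trans_lt a3
  simp only [Unitization.inr_mul, Unitization.inr_star, hs, ht, star_mul, e5, mul_assoc] at b3 ⊢
  linarith

end Vale.Agent.P133
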