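import Vale.Agent.P133.Work

/-! Part LE: calculus of Cuntz comparison of amplifications. -/

namespace Vale.Agent.P133

open Finset

variable {B Q : Type} [CStarAlgebra B] [PartialOrder B] [StarOrderedRing B] [CStarAlgebra Q]
  {n m p k : Type} [Fintype n] [DecidableEq n] [Fintype m] [DecidableEq m] [Fintype p]
  [Fintype k] [DecidableEq k]

theorem LeE.trans {ε δ : ℝ} {h g f : B} (h1 : LeE ε n h m g) (h2 : Le m g p f) (hδ : 0 < δ) :
    LeE (ε + δ) n h p f := by
  obtain ⟨x, hx⟩ := h1
  obtain ⟨C, hC⟩ : ∃ C : ℝ, C = ∑ i, ∑ j, ‖x i j‖ := ⟨_, rfl⟩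
  have C0 : 0 ≤ C := hC ▸ sum_nonneg fun _ _ => sum_nonneg fun _ _ => norm_nonneg _
  have hxC : ∀ j, ∑ i, ‖x i j‖ ≤ C := fun j => hC ▸ sum_le_sum fun i _ =>
    single_le_sum (f := fun j => ‖x i j‖) (fun _ _ => norm_nonneg _) (mem_univ j)
  have hη : 0 < δ / (C * C + 1) := by positivity
  obtain ⟨y, hy⟩ := h2 _ hη
  refine ⟨fun l j => ∑ i, y l i * x i j, fun j k => ?_⟩
  have e : ∑ l, star (∑ i, y l i * x i j) * f * ∑ i, y l i * x i k =
      ∑ i, ∑ i', star (x i j) * (∑ l, star (y l i) * f * y l i' - if i = i' then g else 0) * x i' k +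
        ∑ i, star (x i j) * g * x i k := by
    simp only [mul_sub, sub_mul, sum_sub_distrib, mul_ite, ite_mul, mul_zero, zero_mul, sum_ite_eq,
      mem_univ, if_true, sub_add_cancel, star_sum, star_mul, sum_mul, mul_sum]
    rw [sum_comm]
    conv_rhs => rw [sum_comm]
    refine sum_congr rfl fun i' _ => ?_
    rw [sum_comm]
    exact sum_congr rfl fun i _ => sum_congr rfl fun l _ => by simp only [mul_assoc]
  have b : ‖∑ i, ∑ i', star (x i j) *
      (∑ l, star (y l i) * f * y l i' - if i = i' then g else 0) * x i' k‖ ≤ δ := by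
    calc _ ≤ ∑ i, ∑ i', ‖x i j‖ * (δ / (C * C + 1)) * ‖x i' k‖ :=
          norm_sum_le_of_le _ fun i _ => norm_sum_le_of_le _ fun i' _ =>
            norm_mul_le_of_le (norm_mul_le_of_le (norm_star _).le (hy i i').le) le_rfl
      _ = (∑ i, ‖x i j‖) * (δ / (C * C + 1)) * ∑ i', ‖x i' k‖ := by
          rw [sum_mul, sum_mul_sum]
      _ ≤ C * (δ / (C * C + 1)) * C := by
          gcongr
          · exact hxC j
          · exact hxC k
      _ ≤ δ := by
          rw [mul_right_comm, mul_div_assoc', div_le_iff₀ (by positivity)]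
          nlinarith
  rw [e, add_sub_assoc]
  linarith [norm_add_le (∑ i, ∑ i', star (x i j) *
      (∑ l, star (y l i) * f * y l i' - if i = i' then g else 0) * x i' k)
      (∑ i, star (x i j) * g * x i k - if j = k then h else 0), hx j k]

theorem LeE.amp {ε : ℝ} {h g : B} (hε : 0 < ε) (h1 : LeE ε n h m g) :
    LeE ε (k × n) h (k × m) g := by
  obtain ⟨x, hx⟩ := h1
  refine ⟨fun i j => if i.1 = j.1 then x i.2 j.2 else 0, ?_⟩
  rintro ⟨a, j⟩ ⟨b, l⟩
  rw [Fintype.sum_prod_type, sum_eq_single a (fun c _ hc => by simp [hc])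
    fun h => absurd (mem_univ a) h]
  by_cases c : a = b
  · simpa [c] using hx j l
  · simpa [c] using hε

theorem le_card (h : B) (hc : Fintype.card n ≤ Fintype.card m) : Le n h m h := by
  obtain ⟨e⟩ := Function.Embedding.nonempty_of_card_le hc
  refine fun ε hε => ⟨fun i j => if i = e j then 1 else 0, fun j l => ?_⟩
  rw [sum_eq_single (e j) (fun c _ hc => by simp [hc]) fun h => absurd (mem_univ _) h]
  by_cases c : j = l
  · simpa [c] using hε
  · simpa [c] using hε

namespace LEx

theorem trans {h g f : B} (h1 : Le n h m g) (h2 : Le m g p f) : Le n h p f := fun ε hε => by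
  have := (h1 _ (half_pos hε)).trans h2 (half_pos hε)
  rwa [add_halves] at this

theorem pow {h : B} (h1 : Le (n ⊕ n) h n h) (N : ℕ) : Le (Fin (2 ^ N) × n) h n h := by
  induction N with
  | zero => exact le_card h (by simp)
  | succ N ih =>
    refine trans (m := Fin (2 ^ N) × (n ⊕ n)) (le_card h (le_of_eq ?_))
      (trans (fun ε hε => (h1 ε hε).amp hε) ih)
    simp only [Fintype.card_prod, Fintype.card_fin, Fintype.card_sum]
    ring

end LEx

theorem le_multi {h : B} (h1 : Le (n ⊕ n) h n h) : Le (k × n) h n h := by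
  refine LEx.trans (m := Fin (2 ^ Fintype.card k) × n) (le_card h ?_) (LEx.pow h1 _)
  simp only [Fintype.card_prod, Fintype.card_fin]
  exact Nat.mul_le_mul_right _ Nat.lt_two_pow_self.le

end Vale.Agent.P133
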