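import Vale.Agent.P133.Work

/-! Algebras whose closed ideals are totally ordered. -/

namespace Vale.Agent.P133

open Finset

namespace TO

variable {C : Type} [NonUnitalCStarAlgebra C]

lemma bound {ε : ℝ} (hε : 0 < ε) (t : ℝ) :
    ‖(t - t * (t / (t ^ 2 + ε ^ 4) * t)) -
      t / (t ^ 2 + ε ^ 4) * t * (t - t * (t / (t ^ 2 + ε ^ 4) * t))‖ ≤ ε ^ 2 / 2 := by
  have d0 : 0 < ε ^ 4 := by positivity
  have p1 : 0 < t ^ 2 + ε ^ 4 := by positivity
  have e1 : (t - t * (t / (t ^ 2 + ε ^ 4) * t)) -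
      t / (t ^ 2 + ε ^ 4) * t * (t - t * (t / (t ^ 2 + ε ^ 4) * t)) =
      t * (ε ^ 4) ^ 2 / (t ^ 2 + ε ^ 4) ^ 2 := by
    field_simp
    ring
  rw [e1, Real.norm_eq_abs, abs_div, abs_mul, abs_of_pos (pow_pos d0 2),
    abs_of_pos (pow_pos p1 2), div_le_iff₀ (pow_pos p1 2)]
  have q1 : 2 * |t| * ε ^ 2 ≤ t ^ 2 + ε ^ 4 := by
    nlinarith [sq_nonneg (|t| - ε ^ 2), sq_abs t]
  have q2 : ε ^ 4 ≤ t ^ 2 + ε ^ 4 := by nlinarith [sq_nonneg t]
  have q3 := mul_le_mul q1 q2 d0.le p1.le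
  calc |t| * (ε ^ 4) ^ 2 = ε ^ 2 / 2 * (2 * |t| * ε ^ 2 * ε ^ 4) := by ring
    _ ≤ ε ^ 2 / 2 * (t ^ 2 + ε ^ 4) ^ 2 := by
      rw [sq (t ^ 2 + ε ^ 4)]; exact mul_le_mul_of_nonneg_left q3 (by positivity)

lemma calc1 {h : C} (hs : IsSelfAdjoint h) {g : ℝ → ℝ} (gc : Continuous g) (g0 : g 0 = 0) :
    cfcₙ (fun t : ℝ => (t - t * (g t * t)) - g t * t * (t - t * (g t * t))) h =
      (h - h * (cfcₙ g h * h)) - cfcₙ g h * h * (h - h * (cfcₙ g h * h)) := by
  have e0 : cfcₙ (fun t : ℝ => t) h = h := cfcₙ_id' ℝ h hs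
  have e1 : cfcₙ (fun t : ℝ => g t * t) h = cfcₙ g h * h := by
    rw [cfcₙ_mul g (fun t => t) h gc.continuousOn g0 continuousOn_id rfl, e0]
  have c1 : Continuous fun t : ℝ => g t * t := gc.mul continuous_id
  have c2 : Continuous fun t : ℝ => t * (g t * t) := continuous_id.mul c1
  have c3 : Continuous fun t : ℝ => t - t * (g t * t) := continuous_id.sub c2
  have e2 : cfcₙ (fun t : ℝ => t - t * (g t * t)) h = h - h * (cfcₙ g h * h) := by
    rw [cfcₙ_sub (fun t => t) (fun t => t * (g t * t)) h continuousOn_id rfl c2.continuousOn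
      (zero_mul _), cfcₙ_mul (fun t => t) (fun t => g t * t) h continuousOn_id rfl c1.continuousOn
      (mul_zero _), e0, e1]
  rw [cfcₙ_sub (fun t => t - t * (g t * t)) (fun t => g t * t * (t - t * (g t * t))) h
    c3.continuousOn (by simp) (c1.mul c3).continuousOn (by simp),
    cfcₙ_mul (fun t => g t * t) (fun t => t - t * (g t * t)) h c1.continuousOn (mul_zero _)
      c3.continuousOn (by simp), e1, e2]

lemma semi {P : TwoSidedIdeal C} (hP : IsClosed (P : Set C)) {v : C}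
    (h : v * star v * v ∈ P) : v ∈ P := by
  refine hP.closure_subset (Metric.mem_closure_iff.2 fun ε hε => ?_)
  have hs : IsSelfAdjoint (star v * v) := IsSelfAdjoint.star_mul_self v
  have gc : Continuous fun t : ℝ => t / (t ^ 2 + ε ^ 4) :=
    continuous_id.div (by fun_prop) fun t => by positivity
  have n1 := norm_cfcₙ_le (a := star v * v) fun t _ => bound hε t
  rw [calc1 hs gc (zero_div _)] at n1
  have sk : IsSelfAdjoint (cfcₙ (fun t : ℝ => t / (t ^ 2 + ε ^ 4)) (star v * v)) :=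
    cfcₙ_predicate _ _
  have ck : Commute (cfcₙ (fun t : ℝ => t / (t ^ 2 + ε ^ 4)) (star v * v)) (star v * v) :=
    (Commute.refl _).cfcₙ_real _
  generalize cfcₙ (fun t : ℝ => t / (t ^ 2 + ε ^ 4)) (star v * v) = k at n1 sk ck
  refine ⟨v * star v * v * k, P.mul_mem_right _ _ h, ?_⟩
  have e : star (v - v * star v * v * k) * (v - v * star v * v * k) =
      star v * v - star v * v * (k * (star v * v)) -
        k * (star v * v) * (star v * v - star v * v * (k * (star v * v))) := by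
    rw [ck.eq]
    nth_rewrite 2 [← ck.eq]
    simp only [star_sub, star_mul, star_star, sk.star_eq]
    noncomm_ring
  rw [← e, CStarRing.norm_star_mul_self] at n1
  rw [dist_eq_norm]
  nlinarith [norm_nonneg (v - v * star v * v * k)]

lemma prime (h : ∀ I I' : TwoSidedIdeal C, IsClosed (I : Set C) → IsClosed (I' : Set C) →
    I ≤ I' ∨ I' ≤ I) {P : TwoSidedIdeal C} (hP : IsClosed (P : Set C)) (u v : C)
    (huv : ∀ d : C, u * d * v ∈ P) : u ∈ P ∨ v ∈ P := by
  let N : TwoSidedIdeal C := .mk' {z | ∀ d, u * d * z ∈ P}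
    (fun d => by rw [mul_zero]; exact P.zero_mem)
    (fun hx hy d => by rw [mul_add]; exact P.add_mem (hx d) (hy d))
    (fun hx d => by rw [mul_neg]; exact P.neg_mem (hx d))
    (fun {c _} hy d => by rw [← mul_assoc, mul_assoc u]; exact hy (d * c))
    (fun {_ c} hx d => by rw [← mul_assoc]; exact P.mul_mem_right _ c (hx d))
  have mN : ∀ z, z ∈ N ↔ ∀ d, u * d * z ∈ P := fun z => TwoSidedIdeal.mem_mk' ..
  let N' : TwoSidedIdeal C := .mk' {z | ∀ w ∈ N, ∀ d, z * d * w ∈ P}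
    (fun w _ d => by rw [zero_mul, zero_mul]; exact P.zero_mem)
    (fun hx hy w hw d => by rw [add_mul, add_mul]; exact P.add_mem (hx w hw d) (hy w hw d))
    (fun hx w hw d => by rw [neg_mul, neg_mul]; exact P.neg_mem (hx w hw d))
    (fun {c y} hy w hw d => by
      rw [mul_assoc c, mul_assoc c]; exact P.mul_mem_left c _ (hy w hw d))
    (fun {x c} hx w hw d => by rw [mul_assoc x]; exact hx w hw (c * d))
  have mN' : ∀ z, z ∈ N' ↔ ∀ w ∈ N, ∀ d, z * d * w ∈ P := fun z => TwoSidedIdeal.mem_mk' ..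
  have c1 : IsClosed (N : Set C) := by
    have : (N : Set C) = ⋂ d, (fun z => u * d * z) ⁻¹' P := Set.ext fun z => by
      rw [Set.mem_iInter]; exact mN z
    rw [this]
    exact isClosed_iInter fun d => hP.preimage (by fun_prop)
  have c2 : IsClosed (N' : Set C) := by
    have : (N' : Set C) = ⋂ w ∈ N, ⋂ d, (fun z => z * d * w) ⁻¹' P := Set.ext fun z => by
      simp only [Set.mem_iInter]; exact mN' z
    rw [this]
    exact isClosed_iInter fun w => isClosed_iInter fun _ => isClosed_iInter fun d =>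
      hP.preimage (by fun_prop)
  have hv : v ∈ N := (mN v).2 huv
  have hu : u ∈ N' := (mN' u).2 fun w hw => (mN w).1 hw
  rcases h N N' c1 c2 with e | e
  · exact Or.inr (semi hP ((mN' v).1 (e hv) v hv _))
  · exact Or.inl (semi hP ((mN u).1 (e hu) _))

end TO

theorem fp_of_total (C : Type) [NonUnitalCStarAlgebra C]
    (h : ∀ I I' : TwoSidedIdeal C, IsClosed (I : Set C) → IsClosed (I' : Set C) → I ≤ I' ∨ I' ≤ I) :
    FinitelyPrimeControlled C := by
  intro a ε hε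
  by_cases ha : ‖a‖ < ε
  · exact ⟨0, Fin.elim0, fun j => j.elim0, fun j => j.elim0,
      fun I _ _ => ⟨0, I.zero_mem, by rwa [sub_zero]⟩⟩
  let U : Set C := {z | ∃ I : TwoSidedIdeal C, IsClosed (I : Set C) ∧
    (∀ y ∈ I, ε ≤ ‖a - y‖) ∧ z ∈ I}
  have u0 : (0 : C) ∈ U := ⟨⊥, by
    rw [show ((⊥ : TwoSidedIdeal C) : Set C) = {0} from Set.ext fun _ => TwoSidedIdeal.mem_bot _]
    exact isClosed_singleton, fun y hy => by
      rw [(TwoSidedIdeal.mem_bot _).1 hy, sub_zero]; exact not_lt.1 ha, TwoSidedIdeal.zero_mem _⟩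
  have ua : ∀ x ∈ U, ∀ y ∈ U, x + y ∈ U := by
    rintro x ⟨I, c, d, hx⟩ y ⟨I', c', d', hy⟩
    rcases h I I' c c' with e | e
    · exact ⟨I', c', d', I'.add_mem (e hx) hy⟩
    · exact ⟨I, c, d, I.add_mem hx (e hy)⟩
  let P : TwoSidedIdeal C := .mk' (closure U) (subset_closure u0)
    (fun hx hy => map_mem_closure₂ continuous_add hx hy ua)
    (fun hx => map_mem_closure continuous_neg hx fun _ ⟨I, c, d, hx⟩ => ⟨I, c, d, I.neg_mem hx⟩)
    (fun {x _} hy => map_mem_closure (continuous_const_mul x) hy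
      fun _ ⟨I, c, d, hy⟩ => ⟨I, c, d, I.mul_mem_left _ _ hy⟩)
    (fun {_ y} hx => map_mem_closure (f := (· * y)) (continuous_mul_const y) hx
      fun _ ⟨I, c, d, hx⟩ => ⟨I, c, d, I.mul_mem_right _ _ hx⟩)
  have mP : ∀ z, z ∈ P ↔ z ∈ closure U := fun z => TwoSidedIdeal.mem_mk' ..
  have cP : IsClosed (P : Set C) := by
    rw [show (P : Set C) = closure U from Set.ext mP]
    exact isClosed_closure
  have aP : a ∉ P := fun hm => by
    obtain ⟨z, ⟨I, -, d, hz⟩, e⟩ := Metric.mem_closure_iff.1 ((mP a).1 hm) ε hε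
    rw [dist_eq_norm] at e
    exact (d z hz).not_gt e
  refine ⟨1, fun _ => P, fun _ => ⟨cP, aP, TO.prime h cP⟩,
    fun i j hij => (hij (Subsingleton.elim i j)).elim, fun I c hI => ?_⟩
  by_contra hn
  push Not at hn
  exact hI 0 fun z hz => (mP z).2 (subset_closure ⟨I, c, hn, hz⟩)

end Vale.Agent.P133
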