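import Vale.Agent.P133.Defs
import Vale.Agent.P101.PartQ2
import Vale.Agent.P101.Itw

/-! Working definitions for P133 (inside a unital algebra). -/

namespace Vale.Agent.P133

open Finset

variable {B : Type} [CStarAlgebra B]

/-- `diag_n(h)` is within `ε` of `x* diag_m(g) x`. -/
def LeE (ε : ℝ) (n : Type) [DecidableEq n] (h : B) (m : Type) [Fintype m] (g : B) : Prop :=
  ∃ x : m → n → B, ∀ j k, ‖∑ i, star (x i j) * g * x i k - if j = k then h else 0‖ < ε

/-- Cuntz subequivalence of amplifications. -/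
def Le (n : Type) [DecidableEq n] (h : B) (m : Type) [Fintype m] (g : B) : Prop :=
  ∀ ε : ℝ, 0 < ε → LeE ε n h m g

/-- `z` is in the closed two-sided ideal generated by `g`. -/
def InId (z g : B) : Prop := z ∈ closure (P101.Q2.sums {g} : Set B)

/-- A finite family of test ideals inside `J`. -/
structure Fam (J : TwoSidedIdeal B) {m : ℕ} (P : Fin m → TwoSidedIdeal B) : Prop where
  cl : ∀ j, IsClosed (P j : Set B)
  le : ∀ j, P j ≤ J
  pr : ∀ j, ∀ u ∈ J, ∀ v ∈ J, (∀ d, u * d * v ∈ P j) → u ∈ P j ∨ v ∈ P j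
  inc : ∀ i j, i ≠ j → ¬ P i ≤ P j

/-- The control hypothesis inside a unital algebra. -/
def FP (J : TwoSidedIdeal B) : Prop :=
  ∀ a ∈ J, ∀ ε : ℝ, 0 < ε → ∃ (m : ℕ) (P : Fin m → TwoSidedIdeal B), Fam J P ∧ (∀ j, a ∉ P j) ∧
    ∀ g ∈ J, (∀ j, g ∉ P j) → ∃ z, InId z g ∧ ‖a - z‖ < ε

/-- `n`-fold amplifications of positive elements of `J` are properly infinite. -/
def W [PartialOrder B] (J : TwoSidedIdeal B) (n : ℕ) : Prop :=
  ∀ h ∈ J, 0 ≤ h → Le (Fin n ⊕ Fin n) h (Fin n) h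

/-- The quotient by a closed two-sided ideal. -/
theorem quot' (P : TwoSidedIdeal B) (hP : IsClosed (P : Set B)) :
    ∃ (Q : Type) (_ : CStarAlgebra Q) (π : B →⋆ₐ[ℂ] Q), Function.Surjective π ∧
      ∀ x, π x = 0 ↔ x ∈ P := by
  have : (P.asIdeal).IsTwoSided := ⟨fun b h => P.mul_mem_right _ b h⟩
  obtain ⟨Q, _, π, h1, h2, -⟩ := P101.quot P.asIdeal hP
  exact ⟨Q, _, π, h1, h2⟩

theorem mem_of_star_mul {P : TwoSidedIdeal B} (hP : IsClosed (P : Set B)) {z : B}
    (h : star z * z ∈ P) : z ∈ P := by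
  obtain ⟨Q, _, π, -, h2⟩ := quot' P hP
  rw [← h2] at h ⊢
  rwa [map_mul, map_star, CStarRing.star_mul_self_eq_zero_iff] at h

end Vale.Agent.P133
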